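import Vale.Agent.P183.Relative
import Vale.Agent.P183.Doubling

/-!
Representability passes up along surjective homomorphisms whose collapsed part is acyclic; in
particular it is preserved by Day's doubling of intervals.
-/

namespace Vale.Agent.Results.P183.RelativeFermentation

open Vale.Agent.P183

theorem result :
    (∀ (L L₀ : Type) [Lattice L] [BoundedOrder L] [Finite L] [Lattice L₀] (f : LatticeHom L L₀),
      Function.Surjective f → IsRepresentable L₀ →
        (NoCollapsedCycle f ∨ NoCollapsedCycle (LatticeHom.dual f)) → IsRepresentable L) ∧
    (∀ (L : Type) [Lattice L] [BoundedOrder L] [Finite L] (u v : L),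
      IsRepresentable L → u ≤ v → IsRepresentable (Doubling u v)) := by
  constructor
  · intro L L₀ _ _ _ _ f hf h₀ hcyc
    exact isRepresentable_of_hom f hf h₀ hcyc
  · intro L _ _ _ u v hL _
    exact isRepresentable_of_hom (Doubling.proj u v) (Doubling.proj_surjective u v) hL
      (Or.inl (Doubling.proj_noCollapsedCycle u v))

end Vale.Agent.Results.P183.RelativeFermentation
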